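import Vale.Agent.P146L.Stm2
import Vale.Agent.P226.Ehrhard2

/-! # P146, lower bound: small deviations of convex Gaussian functionals -/

namespace Vale.Agent.P146L

open MeasureTheory ProbabilityTheory Vale.Agent.P157

namespace DevAux

/-- Ehrhard's inequality for the sublevel sets of a convex function. -/
theorem ehr (ι : Type) [Fintype ι] (F : (ι → ℝ) → ℝ) (hF : ConvexOn ℝ Set.univ F)
    (hm : Measurable F) :
    Convex ℝ {q : ℝ × ℝ | P226.Phi q.2
      < (Measure.pi fun _ : ι => gaussianReal 0 1).real {z | F z ≤ q.1}} := by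
  obtain ⟨d, ⟨e⟩⟩ : ∃ d, Nonempty (ι ≃ Fin d) := ⟨_, ⟨Fintype.equivFin ι⟩⟩
  have hmp : MeasurePreserving (fun (y : Fin d → ℝ) (i : ι) => y (e i))
      (Measure.pi fun _ => gaussianReal 0 1) (Measure.pi fun _ => gaussianReal 0 1) :=
    (measurePreserving_piCongrLeft (α := fun _ : Fin d => ℝ)
      (fun _ => gaussianReal 0 1) e).symm _
  have hK : Convex ℝ {p : ℝ × (Fin d → ℝ) | F (fun i => p.2 (e i)) ≤ p.1} := by
    intro p hp q hq a b ha hb hab
    have h := hF.2 (Set.mem_univ fun i => p.2 (e i)) (Set.mem_univ fun i => q.2 (e i)) ha hb hab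
    have hp' : F (fun i => p.2 (e i)) ≤ p.1 := hp
    have hq' : F (fun i => q.2 (e i)) ≤ q.1 := hq
    change F (a • (fun i => p.2 (e i)) + b • fun i => q.2 (e i)) ≤ a * p.1 + b * q.1
    refine h.trans ?_
    simp only [smul_eq_mul]
    gcongr
  have hKm : MeasurableSet {p : ℝ × (Fin d → ℝ) | F (fun i => p.2 (e i)) ≤ p.1} :=
    measurableSet_le (hm.comp (hmp.measurable.comp measurable_snd)) measurable_fst
  have h := P226.ehrhard_pi d _ hK hKm
  convert h using 4 with q
  rw [← hmp.measureReal_preimage (measurableSet_le hm measurable_const).nullMeasurableSet]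
  rfl

theorem Phi_half : P226.Phi (1 / 2) ≤ 7 / 10 := by
  have h1 := P226.Phi_sub_Phi 0 (1 / 2)
  have h2 : ∫ x in (0 : ℝ)..(1 / 2), P226.phi x ≤ ∫ _ in (0 : ℝ)..(1 / 2), (2 / 5 : ℝ) := by
    refine intervalIntegral.integral_mono_on (by norm_num)
      (P226.continuous_phi.intervalIntegrable _ _) (continuous_const.intervalIntegrable _ _)
      fun x _ => (P226.phi_le x).trans ?_
    rw [div_le_iff₀ P226.sqrt_two_pi_pos]
    have : (5 / 2 : ℝ) ≤ √(2 * Real.pi) :=
      Real.le_sqrt_of_sq_le (by linarith [Real.pi_gt_d2])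
    linarith
  rw [intervalIntegral.integral_const, smul_eq_mul] at h2
  rw [P226.Phi_zero] at h1
  linarith

theorem Qt_le {x : ℝ} (hx : 0 ≤ x) : P226.Qt x ≤ Real.exp (-(x ^ 2 / 2)) := by
  have h := measure_ge_le_exp_mul_mgf (μ := gaussianReal 0 1) (X := id) x hx
    (integrable_exp_mul_gaussianReal x)
  rw [mgf_id_gaussianReal, ← Real.exp_add] at h
  rw [← P226.g1_Ici]
  refine le_trans (le_of_eq rfl) (h.trans (le_of_eq ?_))
  congr 1
  simp only [NNReal.coe_one]
  ring

end DevAux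

open DevAux in
theorem dev : S_dev := by
  intro ι _ F hF hL s hs
  have hE := ehr ι F hF hL.1
  have hI : EInt (Measure.pi fun _ : ι => gaussianReal 0 1) F := by
    have h := hL.eint (noise_gv fun _ : ι => (1 : ℝ)) 0
    simp only [zero_add, gv, g1_one] at h
    exact h
  obtain ⟨μ, hμ⟩ : ∃ μ, μ = Measure.pi fun _ : ι => gaussianReal 0 1 := ⟨_, rfl⟩
  have hP : IsProbabilityMeasure μ := by rw [hμ]; infer_instance
  rw [← hμ] at hE hI ⊢
  have h2 : MemLp F 2 μ :=
    (memLp_two_iff_integrable_sq hL.1.aestronglyMeasurable).2 (hI.integrable_pow 2)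
  obtain ⟨a, ha⟩ : ∃ a, a = √(variance F μ) + 1 := ⟨_, rfl⟩
  obtain ⟨m, hm⟩ : ∃ m, m = ∫ u, F u ∂μ := ⟨_, rfl⟩
  rw [← ha, ← hm]
  have ha1 : 1 ≤ a := by rw [ha]; linarith [Real.sqrt_nonneg (variance F μ)]
  have ha0 : 0 < a := by linarith
  have hv : variance F μ ≤ a ^ 2 := by
    have h1 := Real.sq_sqrt (variance_nonneg F μ)
    have h0 := Real.sqrt_nonneg (variance F μ)
    rw [ha]
    nlinarith
  have hC : μ.real {z | 2 * a ≤ |F z - m|} ≤ 1 / 4 := by
    have h := meas_ge_le_variance_div_sq h2 (c := 2 * a) (by linarith)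
    rw [← hm] at h
    refine ENNReal.toReal_le_of_le_ofReal (by norm_num) (h.trans (ENNReal.ofReal_le_ofReal ?_))
    rw [div_le_iff₀ (by positivity)]
    nlinarith
  have hmeas : ∀ u : ℝ, MeasurableSet {z | F z ≤ u} := fun u =>
    measurableSet_le hL.1 measurable_const
  have hup : 3 / 4 ≤ μ.real {z | F z ≤ m + 2 * a} := by
    have h1 := probReal_compl_eq_one_sub (μ := μ) (hmeas (m + 2 * a))
    have h3 : μ.real {z | F z ≤ m + 2 * a}ᶜ ≤ μ.real {z | 2 * a ≤ |F z - m|} := by
      refine measureReal_mono fun z hz => ?_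
      have hz' : ¬F z ≤ m + 2 * a := hz
      change 2 * a ≤ |F z - m|
      linarith [le_abs_self (F z - m), not_le.1 hz']
    linarith
  have hlo : μ.real {z | F z ≤ m - 2 * a} ≤ 1 / 4 := by
    refine le_trans (measureReal_mono fun z hz => ?_) hC
    have hz' : F z ≤ m - 2 * a := hz
    change 2 * a ≤ |F z - m|
    linarith [neg_le_abs (F z - m)]
  have hin : ((m + 2 * a, 1 / 2) : ℝ × ℝ) ∈
      {q : ℝ × ℝ | P226.Phi q.2 < μ.real {z | F z ≤ q.1}} := by
    change P226.Phi (1 / 2) < μ.real {z | F z ≤ m + 2 * a}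
    linarith [Phi_half]
  have hout : μ.real {z | F z ≤ m - 2 * a - s} ≤ P226.Phi (-(1 / 2) - s / (4 * a)) := by
    by_contra hcon
    have hin2 : ((m - 2 * a - s, -(1 / 2) - s / (4 * a)) : ℝ × ℝ) ∈
        {q : ℝ × ℝ | P226.Phi q.2 < μ.real {z | F z ≤ q.1}} := not_le.1 hcon
    have hsa : 0 < s + 4 * a := by linarith
    have h := hE hin hin2 (a := s / (s + 4 * a)) (b := 4 * a / (s + 4 * a)) (by positivity)
      (by positivity) (by field_simp)
    have e : (s / (s + 4 * a)) • ((m + 2 * a, 1 / 2) : ℝ × ℝ)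
        + (4 * a / (s + 4 * a)) • ((m - 2 * a - s, -(1 / 2) - s / (4 * a)) : ℝ × ℝ)
        = (m - 2 * a, -(1 / 2)) := by
      ext
      · simp only [Prod.fst_add, Prod.smul_fst, smul_eq_mul]
        field_simp
        ring
      · simp only [Prod.snd_add, Prod.smul_snd, smul_eq_mul]
        field_simp
        ring
    rw [e] at h
    have h' : P226.Phi (-(1 / 2)) < μ.real {z | F z ≤ m - 2 * a} := h
    rw [P226.Phi_neg, P226.Qt] at h'
    linarith [Phi_half]
  have hx : 0 ≤ s / (4 * a) := by positivity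
  refine hout.trans ((P226.strictMono_Phi.monotone
    (show -(1 / 2) - s / (4 * a) ≤ -(s / (4 * a)) by linarith)).trans ?_)
  rw [P226.Phi_neg]
  refine (Qt_le hx).trans (le_of_eq ?_)
  congr 1
  field_simp
  ring

end Vale.Agent.P146L
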