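import Vale.Agent.P146L.Der
import Vale.Agent.P146L.Lip
import Vale.Agent.P146L.Dec
import Vale.Agent.P146L.Free
import Vale.Agent.P146L.Tri
import Vale.Agent.P146L.Link
import Vale.Agent.P146L.Dev
import Vale.Agent.P146L.Tail
import Vale.Agent.P146L.Avg
import Vale.Agent.P146L.Cn
import Vale.Agent.P146L.StepA
import Vale.Agent.P146L.StepB
import Vale.Agent.P146L.Close
import Vale.Agent.P146L.Step
import Vale.Agent.P146L.Mean
import Vale.Agent.P146L.Guerra
import Vale.Agent.P146L.Lower
import Vale.Agent.P146L.One
import Vale.Agent.P146L.Res

/-! # P146, lower bound: assembly -/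

namespace Vale.Agent.P146L

theorem mean_main : S_mean2 :=
  mean2 (step_main cn (stepA der) (stepB der dec (close (lip der) dec)) (close (lip der) dec))
    avg (lip der) dec (close (lip der) dec)

theorem lower_main : S_lower :=
  lower onesite res mean_main (guerra der free) (tail dev) (link der tri_eq cvx)

end Vale.Agent.P146L
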