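import Vale.Agent.P146L.All
import Vale.Agent.P146.All

/-! # P146, lower bound: anti-concentration on a polynomial scale -/

namespace Vale.Agent.P146L

open MeasureTheory ProbabilityTheory Vale.Agent.P157

theorem sqrt_le_aux {N u : ℝ} (N0 : 0 ≤ N) (u0 : 0 < u) (u1 : u ≤ 1) (hN : 1 ≤ N * u ^ 1944) :
    √N ≤ N * u ^ 72 := by
  have m3 : 1 ≤ N * u ^ 144 :=
    hN.trans (mul_le_mul_of_nonneg_left (pow_le_pow_of_le_one u0.le u1 (by norm_num)) N0)
  clear hN
  refine Real.sqrt_le_iff.2 ⟨mul_nonneg N0 (pow_pos u0 72).le, ?_⟩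
  calc N = N * 1 := (mul_one _).symm
    _ ≤ N * (N * u ^ 144) := mul_le_mul_of_nonneg_left m3 N0
    _ = _ := by ring

open LowerAux in
theorem lower2 (h1 : S_onesite) (h2 : S_res) (h3 : S_mean2) (h4 : S_guerra)
    (h6 : S_link) {β : ℝ} (hβ : 1 < β) {C3 : ℝ} (hC3 : 0 ≤ C3) :
    ∃ c : ℝ, 0 < c ∧ ∃ n0 : ℕ, ∀ n : ℕ, n0 ≤ n → ∀ V : ℝ, 0 ≤ V →
      (∀ m : ℝ, 1 ≤ m → √(n : ℝ) ≤ m → lse (P146.disorder n) 0 (P146.freeEnergy n β)
        - lse (P146.disorder n) (-m) (P146.freeEnergy n β) ≤ C3 * m * (1 + V)) →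
      c * (n : ℝ) ^ (1 / 1000 : ℝ) ≤ V := by
  obtain ⟨K, hK, H1⟩ := h1 β hβ
  obtain ⟨C1, hC1, H2⟩ := h2
  obtain ⟨C2, hC2, H3⟩ := h3 β
  obtain ⟨A, eA⟩ : ∃ A, A = K + C2 + β ^ 2 / 4 + C3 := ⟨_, rfl⟩
  have hA : 1 ≤ A := by nlinarith [sq_nonneg β]
  obtain ⟨B, eB⟩ : ∃ B, B = 4 * A * C1 * β ^ 2 * K ^ 2 := ⟨_, rfl⟩
  have hB : 1 ≤ B := by
    rw [eB]
    calc (1 : ℝ) ≤ 4 * 1 * 1 * 1 ^ 2 * 1 ^ 2 := by norm_num
      _ ≤ _ := by gcongr
  obtain ⟨p0, hp0⟩ := exists_nat_ge (9 * A * C1 * (1 + β) ^ 2 + 4 * (β * K) + 2 * B + 2)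
  refine ⟨1 / (8 * B), by positivity, p0 ^ 1944, fun n hn V V0 H5' => ?_⟩
  obtain ⟨p, p3, p1, p2⟩ := root 1944 p0 n (by norm_num) hn
  clear hn
  have p4 : 9 * A * C1 * (1 + β) ^ 2 + 4 * (β * K) + 2 * B + 2 ≤ p :=
    hp0.trans (by exact_mod_cast p3)
  have y1 : 0 ≤ 9 * A * C1 * (1 + β) ^ 2 := by positivity
  have y2 : 0 ≤ β * K := by positivity
  have P2 : (2 : ℝ) ≤ p := by linarith
  have P0 : (0 : ℝ) < p := by linarith
  have p5 : 2 ≤ p := by exact_mod_cast P2
  have n1 : 1 ≤ n := (Nat.one_le_pow _ _ (by omega)).trans p1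
  obtain ⟨l1, l2, l3⟩ := h6 n β n1
  have up : (p : ℝ) * (p : ℝ)⁻¹ = 1 := mul_inv_cancel₀ P0.ne'
  have u0 : 0 < (p : ℝ)⁻¹ := inv_pos.2 P0
  have u2 : (p : ℝ)⁻¹ ≤ 1 / 2 := by
    rw [← one_mul (p : ℝ)⁻¹]
    exact pick P0 (by linarith only [P2])
  have u3 : β * K * (p : ℝ)⁻¹ ≤ 1 / 4 := pick P0 (by linarith only [p4, y1, hB])
  have u4 : 9 * A * C1 * (1 + β) ^ 2 * (p : ℝ)⁻¹ ≤ 1 := pick P0 (by linarith only [p4, y2, hB])
  have key : 1 ≤ B * (1 + V) * (p : ℝ)⁻¹ ^ 2 := by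
    by_cases hW : (1 + V) * (p : ℝ)⁻¹ ^ 2 ≤ 1
    swap
    · rw [mul_assoc]
      exact one_le_mul_of_one_le_of_one_le hB (not_le.1 hW).le
    have hL : 1 ≤ (p ^ 72) ^ 2 := Nat.one_le_pow _ _ (Nat.pow_pos (by omega))
    have hr : 2 ≤ p ^ 72 := p5.trans (Nat.le_self_pow (by norm_num) p)
    obtain ⟨q, q1, q2, q3, q4⟩ := H1 _ hL
    have eL : K / (((p ^ 72) ^ 2 : ℕ) : ℝ) = K * (p : ℝ)⁻¹ ^ 144 := by
      push_cast
      rw [← pow_mul, div_eq_mul_inv, inv_pow]
    have er : C2 * n / ((p ^ 72 : ℕ) : ℝ) = C2 * (n * (p : ℝ)⁻¹ ^ 72) := by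
      push_cast
      rw [div_eq_mul_inv, inv_pow, mul_assoc]
    have hN : 1 ≤ (n : ℝ) * (p : ℝ)⁻¹ ^ 1944 := by
      rw [inv_pow, ← div_eq_mul_inv, one_le_div (pow_pos P0 _)]
      exact_mod_cast p1
    have u1 : (p : ℝ)⁻¹ ≤ 1 := inv_le_one_of_one_le₀ (by linarith)
    have N0 : (0 : ℝ) ≤ n := Nat.cast_nonneg n
    have m1 : 1 ≤ (n : ℝ) * (p : ℝ)⁻¹ ^ 72 :=
      hN.trans (mul_le_mul_of_nonneg_left (pow_le_pow_of_le_one u0.le u1 (by norm_num)) N0)
    have a1 := H3 (p ^ 72) n hr (by rw [← pow_mul]; exact p1)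
      (GG _ (grid _) β q - K / (((p ^ 72) ^ 2 : ℕ) : ℝ)) fun q' b c => by linarith [q2 q' b c]
    rw [eL] at q3 q4 a1
    rw [er] at a1
    generalize (p ^ 72) ^ 2 = L at hL q1 q3 q4 a1
    have za := zadm_grid hL
    have zg := zn_of_zadm za
    rw [eB]
    refine core h4 n1 hL (fun ζ q t δ s μ0 => by
      simpa only [Fintype.card_fin] using
        @H2 (Fin n) _ _ ⟨⟨0, n1⟩⟩ L ζ q β t δ s μ0) hβ.le hK hA hC1 (by linarith) u0
      u2 u3 u4 hW hN q1 q3 q4 ?_
    rw [l3 L _ zg, za.zn L le_rfl] at a1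
    rw [l3, Function.update_self]
    · have m2 := sqrt_le_aux N0 u0 u1 hN
      have a2 := H5' _ m1 m2
      clear m2
      have a3 : n * (K * (p : ℝ)⁻¹ ^ 144) ≤ K * (n * (p : ℝ)⁻¹ ^ 72) := by
        rw [mul_left_comm]
        exact mul_le_mul_of_nonneg_left (mul_le_mul_of_nonneg_left
          (pow_le_pow_of_le_one u0.le u1 (by norm_num)) N0) (zero_le_one.trans hK)
      generalize (n : ℝ) * (p : ℝ)⁻¹ ^ 72 = m at a1 a2 a3 m1 ⊢
      have a4 : (K + C2 + β ^ 2 / 4) * m ≤ (K + C2 + β ^ 2 / 4) * m * (1 + V) :=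
        le_mul_of_one_le_right (by positivity) (by linarith)
      rw [eA]
      clear p1 p2 hN eL er q2 q3 q4
      nlinarith only [a1, a2, a3, a4]
    · refine ⟨hL, by rw [Function.update_of_ne (by omega), zg.z0], fun d hd => ?_,
        fun d hd => by rw [Function.update_of_ne hd.ne]; exact zg.nn d hd⟩
      rw [Function.update_of_ne hd.ne]
      rcases (Nat.succ_le_of_lt hd).eq_or_lt with h | h
      · rw [show d + 1 = L from h, Function.update_self]
        linarith [zg.nn d hd]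
      · rw [Function.update_of_ne (Nat.ne_of_lt h)]
        exact zg.anti d hd
  have b1 : (n : ℝ) ^ (1 / 1000 : ℝ) ≤ (2 * p) ^ 2 := by
    have c1 : (n : ℝ) ≤ (2 * p) ^ 1944 := by
      have : n ≤ (2 * p) ^ 1944 := p2.le.trans (Nat.pow_le_pow_left (by omega) _)
      exact_mod_cast this
    calc _ ≤ (((2 * p : ℝ)) ^ 1944) ^ (1 / 1000 : ℝ) :=
          Real.rpow_le_rpow (Nat.cast_nonneg n) c1 (by norm_num)
      _ = (2 * p : ℝ) ^ (((1944 : ℕ) : ℝ) * (1 / 1000)) := by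
          rw [Real.rpow_mul (mul_pos two_pos P0).le, Real.rpow_natCast]
      _ ≤ (2 * p : ℝ) ^ ((2 : ℕ) : ℝ) :=
          Real.rpow_le_rpow_of_exponent_le (by linarith) (by norm_num)
      _ = _ := Real.rpow_natCast _ _
  have b2 : (p : ℝ) ^ 2 ≤ B * (1 + V) := by
    rwa [inv_pow, ← div_eq_mul_inv, one_le_div (pow_pos P0 _)] at key
  clear p1 p2
  rw [one_div, inv_mul_le_iff₀ (by positivity)]
  nlinarith only [b1, b2, p4, P2, y1, y2, hB]

namespace AntiAux

open DevAux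

theorem Phi_step (y : ℝ) : P226.Phi (y + 1) ≤ P226.Phi y + 2 / 5 := by
  have h1 := P226.Phi_sub_Phi y (y + 1)
  have h2 : ∫ x in y..(y + 1), P226.phi x ≤ ∫ _ in y..(y + 1), (2 / 5 : ℝ) := by
    refine intervalIntegral.integral_mono_on (by linarith)
      (P226.continuous_phi.intervalIntegrable _ _) (continuous_const.intervalIntegrable _ _)
      fun x _ => (P226.phi_le x).trans ?_
    rw [div_le_iff₀ P226.sqrt_two_pi_pos]
    have : (5 / 2 : ℝ) ≤ √(2 * Real.pi) :=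
      Real.le_sqrt_of_sq_le (by linarith [Real.pi_gt_d2])
    linarith
  rw [intervalIntegral.integral_const, smul_eq_mul] at h2
  linarith

/-- Lower tail in terms of an interval of large probability. -/
theorem devQ {ι : Type} [Fintype ι] {F : (ι → ℝ) → ℝ} (hF : ConvexOn ℝ Set.univ F)
    (hm : Measurable F) {b a : ℝ} (ha : 0 < a)
    (hI : (Measure.pi fun _ : ι => gaussianReal 0 1).real {z | F z ≤ b} + 1 / 2
      < (Measure.pi fun _ : ι => gaussianReal 0 1).real {z | F z ≤ b + a}) {s : ℝ} (hs : 0 ≤ s) :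
    (Measure.pi fun _ : ι => gaussianReal 0 1).real {z | F z ≤ b - s}
      ≤ Real.exp (-(s ^ 2 / (32 * a ^ 2))) := by
  have hE := ehr ι F hF hm
  obtain ⟨μ, hμ⟩ : ∃ μ, μ = Measure.pi fun _ : ι => gaussianReal 0 1 := ⟨_, rfl⟩
  have hP : IsProbabilityMeasure μ := by rw [hμ]; infer_instance
  rw [← hμ] at hE hI ⊢
  have p1 : μ.real {z | F z ≤ b + a} ≤ 1 := measureReal_le_one
  have p0 : 0 ≤ μ.real {z | F z ≤ b} := measureReal_nonneg
  have q0 : max (μ.real {z | F z ≤ b}) (1 / 20) < 1 / 2 := max_lt (by linarith) (by norm_num)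
  obtain ⟨y, hy⟩ := P226.exists_Phi_eq (p := max (μ.real {z | F z ≤ b}) (1 / 20))
    (lt_max_of_lt_right (by norm_num)) (by linarith)
  have y0 : y ≤ 0 := by
    by_contra h
    have := P226.strictMono_Phi (not_le.1 h)
    rw [P226.Phi_zero, hy] at this
    linarith
  have y1 : P226.Phi y ≤ μ.real {z | F z ≤ b} + 1 / 20 := by
    rw [hy]
    exact max_le (by linarith) (by linarith)
  have hin : ((b + a, y + 1) : ℝ × ℝ) ∈
      {q : ℝ × ℝ | P226.Phi q.2 < μ.real {z | F z ≤ q.1}} := by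
    change P226.Phi (y + 1) < μ.real {z | F z ≤ b + a}
    linarith [Phi_step y]
  have hout : μ.real {z | F z ≤ b - s} ≤ P226.Phi (y - s / a) := by
    by_contra hcon
    have hin2 : ((b - s, y - s / a) : ℝ × ℝ) ∈
        {q : ℝ × ℝ | P226.Phi q.2 < μ.real {z | F z ≤ q.1}} := not_le.1 hcon
    have hsa : 0 < s + a := by linarith
    have h := hE hin hin2 (a := s / (s + a)) (b := a / (s + a)) (by positivity)
      (by positivity) (by field_simp)
    have e : (s / (s + a)) • ((b + a, y + 1) : ℝ × ℝ)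
        + (a / (s + a)) • ((b - s, y - s / a) : ℝ × ℝ) = (b, y) := by
      ext
      · simp only [Prod.fst_add, Prod.smul_fst, smul_eq_mul]
        field_simp
        ring
      · simp only [Prod.snd_add, Prod.smul_snd, smul_eq_mul]
        field_simp
        ring
    rw [e] at h
    have h' : P226.Phi y < μ.real {z | F z ≤ b} := h
    rw [hy] at h'
    exact absurd (le_max_left _ _) (not_le.2 h')
  have hx : 0 ≤ s / a := by positivity
  refine hout.trans ((P226.strictMono_Phi.monotone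
    (show y - s / a ≤ -(s / a) by linarith)).trans ?_)
  rw [P226.Phi_neg]
  refine (Qt_le hx).trans (Real.exp_le_exp.2 (neg_le_neg ?_))
  rw [div_pow, div_div]
  exact div_le_div_of_nonneg_left (sq_nonneg s) (by positivity) (by nlinarith [sq_nonneg a])

theorem tailQ {ι : Type} [Fintype ι] {F : (ι → ℝ) → ℝ} (hc : ConvexOn ℝ Set.univ F) (hF : LG F)
    {b a : ℝ} (ha : 0 < a)
    (hI : (Measure.pi fun _ : ι => gaussianReal 0 1).real {z | F z ≤ b} + 1 / 2
      < (Measure.pi fun _ : ι => gaussianReal 0 1).real {z | F z ≤ b + a}) {m : ℝ} (hm : 1 ≤ m) :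
    lse (Measure.pi fun _ : ι => gaussianReal 0 1) 0 F
        - lse (Measure.pi fun _ : ι => gaussianReal 0 1) (-m) F
      ≤ 10 * (√(variance F (Measure.pi fun _ : ι => gaussianReal 0 1)) + 1) + a
        + 16 * a ^ 2 * m + Real.log TailAux.K := by
  have hK := TailAux.one_le_K
  have hl := Real.log_nonneg hK
  have hq := fun s hs => devQ hc hF.1 ha hI (s := s) hs
  have hd := dev ι F hc hF (8 * (√(variance F (Measure.pi fun _ : ι => gaussianReal 0 1)) + 1))
    (by positivity)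
  have hE : EInt (Measure.pi fun _ : ι => gaussianReal 0 1) F := by
    have := hF.eint (noise_gv fun _ : ι => (1 : ℝ)) 0
    simpa [gv, g1_one] using this
  obtain ⟨ν, hν⟩ : ∃ ν, ν = Measure.pi fun _ : ι => gaussianReal 0 1 := ⟨_, rfl⟩
  have hP : IsProbabilityMeasure ν := by rw [hν]; infer_instance
  rw [← hν] at hE hI hq hd ⊢
  obtain ⟨σ, hσ⟩ : ∃ σ, σ = √(variance F ν) + 1 := ⟨_, rfl⟩
  have σ0 : 0 < σ := by rw [hσ]; positivity
  obtain ⟨μ, hμ⟩ : ∃ μ, μ = ∫ u, F u ∂ν := ⟨_, rfl⟩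
  rw [← hσ, ← hμ] at hd
  rw [← hσ]
  have hb : μ - 10 * σ ≤ b + a := by
    by_contra h
    have h1 : ν.real {z | F z ≤ b + a} ≤ ν.real {z | F z ≤ μ - 2 * σ - 8 * σ} :=
      measureReal_mono fun z hz => by
        have hz' : F z ≤ b + a := hz
        change F z ≤ _
        linarith [not_le.1 h]
    have h2 : (8 * σ) ^ 2 / (32 * σ ^ 2) = 2 := by
      field_simp
      norm_num
    rw [h2] at hd
    have h3 : Real.exp (-2) ≤ 1 / 2 := by
      rw [Real.exp_neg, inv_le_comm₀ (Real.exp_pos _) (by norm_num)]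
      linarith [Real.add_one_le_exp 2]
    have p0 : 0 ≤ ν.real {z | F z ≤ b} := measureReal_nonneg
    linarith
  have hm0 : 0 < m := by linarith
  have key := TailAux.mgf_le (ν := ν) (Z := fun z => b - F z) (measurable_const.sub hE.1)
    (a := a) (m := m) ha hm0.le fun s hs => by
      refine le_trans (le_of_eq ?_) (hq s hs)
      congr 1
      ext z
      simp only [Set.mem_ofPred_eq]
      constructor <;> intro h <;> linarith
  have e : ∀ z, Real.exp (m * (b - F z)) = Real.exp (m * b) * Real.exp (-m * F z) := by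
    intro z
    rw [← Real.exp_add]
    congr 1
    ring
  simp only [e] at key
  rw [← ofReal_integral_eq_lintegral_ofReal ((hE.2 (-m)).const_mul _)
    (ae_of_all _ fun z => by positivity), integral_const_mul,
    ENNReal.ofReal_le_ofReal_iff (by positivity)] at key
  have hp : 0 < ∫ z, Real.exp (-m * F z) ∂ν := integral_exp_pos (hE.2 (-m))
  have k2 := Real.log_le_log (by positivity) key
  rw [Real.log_mul (Real.exp_pos _).ne' hp.ne', Real.log_mul (Real.exp_pos _).ne' (by positivity),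
    Real.log_exp, Real.log_exp] at k2
  rw [lse, lse, if_pos rfl, if_neg (neg_ne_zero.mpr hm0.ne'), ← hμ]
  generalize Real.log (∫ z, Real.exp (-m * F z) ∂ν) = l at k2
  have e2 : μ - (-m)⁻¹ * l = (m * μ + l) / m := by
    field_simp
    ring
  rw [e2, div_le_iff₀ hm0]
  have h3 : Real.log TailAux.K ≤ Real.log TailAux.K * m := le_mul_of_one_le_right hl hm
  have h4 := mul_le_mul_of_nonneg_left hb hm0.le
  nlinarith

end AntiAux

/-- No interval of length `c n ^ (1/2000)` carries more than half of the law of `F_n`. -/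
theorem anti {β : ℝ} (hβ : 1 < β) : ∃ c : ℝ, 0 < c ∧ ∃ n0 : ℕ, ∀ n : ℕ, n0 ≤ n → ∀ b : ℝ,
    (P146.disorder n).real {g | b ≤ P146.freeEnergy n β g ∧
      P146.freeEnergy n β g ≤ b + c * (n : ℝ) ^ (1 / 2000 : ℝ)} ≤ 1 / 2 := by
  obtain ⟨C, hC⟩ := P146.main
  have hl := Real.log_nonneg TailAux.one_le_K
  obtain ⟨c, hc, n0, h⟩ := lower2 onesite res mean_main (guerra der free) (link der tri_eq cvx) hβ
    (C3 := 10 * √(|C| * β ^ 2) + 44 + Real.log TailAux.K) (by positivity)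
  refine ⟨√c / 2, by positivity, max n0 1, fun n hn b => ?_⟩
  have n1 : 1 ≤ n := (le_max_right _ _).trans hn
  have N1 : (1 : ℝ) ≤ n := by exact_mod_cast n1
  by_contra hcon
  obtain ⟨l1, l2⟩ := cvx n β
  obtain ⟨a, ha⟩ : ∃ a, a = √c / 2 * (n : ℝ) ^ (1 / 2000 : ℝ) := ⟨_, rfl⟩
  have a0 : 0 ≤ a := by rw [ha]; positivity
  rw [← ha] at hcon
  have hP : IsProbabilityMeasure (P146.disorder n) := by
    unfold P146.disorder
    infer_instance
  have hI : (P146.disorder n).real {z | P146.freeEnergy n β z ≤ b - 1} + 1 / 2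
      < (P146.disorder n).real {z | P146.freeEnergy n β z ≤ b - 1 + (a + 1)} := by
    have h1 := measureReal_union (μ := P146.disorder n)
      (s₁ := {z | P146.freeEnergy n β z ≤ b - 1})
      (s₂ := {g | b ≤ P146.freeEnergy n β g ∧ P146.freeEnergy n β g ≤ b + a})
      (Set.disjoint_left.2 fun z h1 h2 => by
        have h1' : P146.freeEnergy n β z ≤ b - 1 := h1
        linarith [h2.1])
      ((measurableSet_le measurable_const l2.1).inter (measurableSet_le l2.1 measurable_const))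
    have h2 : (P146.disorder n).real ({z | P146.freeEnergy n β z ≤ b - 1} ∪
        {g | b ≤ P146.freeEnergy n β g ∧ P146.freeEnergy n β g ≤ b + a})
        ≤ (P146.disorder n).real {z | P146.freeEnergy n β z ≤ b - 1 + (a + 1)} :=
      measureReal_mono fun z hz => by
        change P146.freeEnergy n β z ≤ _
        rcases hz with hz | hz
        · have hz' : P146.freeEnergy n β z ≤ b - 1 := hz
          linarith
        · linarith [hz.2]
    linarith [not_le.1 hcon]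
  have hV : √(variance (P146.freeEnergy n β) (P146.disorder n)) ≤ √(|C| * β ^ 2) * √n := by
    rw [← Real.sqrt_mul (by positivity)]
    refine Real.sqrt_le_sqrt ((hC β n n1).trans ?_)
    have h1 : (n : ℝ) ^ (4 / 5 : ℝ) ≤ n := by
      conv_rhs => rw [← Real.rpow_one (n : ℝ)]
      exact Real.rpow_le_rpow_of_exponent_le N1 (by norm_num)
    have h2 : C * β ^ 2 ≤ |C| * β ^ 2 := by gcongr; exact le_abs_self C
    exact mul_le_mul h2 h1 (by positivity) (by positivity)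
  have key := h n ((le_max_left _ _).trans hn) (a ^ 2) (by positivity) fun m hm hm' => by
    refine (AntiAux.tailQ l1 l2 (by linarith : 0 < a + 1) hI hm).trans ?_
    change 10 * (√(variance (P146.freeEnergy n β) (P146.disorder n)) + 1) + _ + _ + _ ≤ _
    have s0 := Real.sqrt_nonneg (|C| * β ^ 2)
    have h1 := hV.trans (mul_le_mul_of_nonneg_left hm' s0)
    have m0 : 0 ≤ m := by linarith
    have h2 : a + 1 ≤ 2 * (1 + a ^ 2) * m :=
      le_trans (by nlinarith [sq_nonneg (a - 1)]) (le_mul_of_one_le_right (by positivity) hm)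
    have h3 : 16 * (a + 1) ^ 2 * m ≤ 32 * (1 + a ^ 2) * m := by
      gcongr ?_ * _
      nlinarith [sq_nonneg (a - 1)]
    have h4 : 1 ≤ m * (1 + a ^ 2) := one_le_mul_of_one_le_of_one_le hm (by nlinarith)
    have h5 : m ≤ m * (1 + a ^ 2) := le_mul_of_one_le_right m0 (by nlinarith)
    have h6 := mul_le_mul_of_nonneg_left h4 hl
    have h7 := mul_le_mul_of_nonneg_left h5 s0
    nlinarith
  have e : a ^ 2 = c / 4 * (n : ℝ) ^ (1 / 1000 : ℝ) := by
    rw [ha, mul_pow, div_pow, Real.sq_sqrt hc.le, ← Real.rpow_natCast ((n : ℝ) ^ (1 / 2000 : ℝ)),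
      ← Real.rpow_mul (by positivity)]
    norm_num
  have p : 0 < (n : ℝ) ^ (1 / 1000 : ℝ) := by positivity
  nlinarith

end Vale.Agent.P146L
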